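import Crest.Agent.X212.Glu22.Mix
import Crest.Agent.X212.Hd82.Fin
import Crest.Agent.X212.Rsv69.Zb
import Crest.Agent.X212.Rsv69.Apr
import Crest.Agent.X212.Rsv69.Nh
import Crest.Agent.X212.Rsv69.P1
import Crest.Agent.X212.Rsv69.Lc
import Crest.Agent.X212.Top0.IX
import Crest.Agent.X212.Nkz76.Stab
import Crest.Agent.X212.Nkz76.Main
import Crest.Agent.X212.Gnk23.Asm
import Crest.Agent.X212.Iz83.Main
import Crest.Agent.X212.Nkz76.Wy
import Crest.Agent.X212.Nk89.Gwe
import Crest.Agent.X212.Mon62.PM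
import Crest.Agent.X212.Klp2.Pm
import Crest.Agent.X212.Sm42.Top
import Crest.Agent.X212.Sm42.Lad
import Crest.Agent.X212.Sm42.Main
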